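import Vale.Agent.Lib.P209.Rank

/-!
# P209: a rank criterion for symplectic packings of a ball by any number of balls

Let `n ≥ 1` and let `a 0, ..., a (k-1)` be positive capacities, with no bound on `k`.  List
them in non-increasing order, `b r = a (σ r)` for a permutation `σ`, so that
`b 0 ≥ b 1 ≥ ... ≥ b (k-1)`.  If

`b 0 + b 1 + b (2 ^ n) + b (3 ^ n) + ... < R`

(the sum of `b (j ^ n)` over all `j ≥ 0` with `j ^ n < k`), then the closed balls of capacities
`a i` admit a symplectic packing into the open ball of capacity `R`.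

For `k ≤ 2 ^ n` the hypothesis reads `b 0 + b 1 < R`: the two largest capacities sum to less
than `R`.  For `k = m ^ n` equal balls it reads `m * a < R`.

The embeddings are explicit toric maps onto the simplices of a staircase subdivision of the
moment simplex into bands of widths `b 0, b 1, b (2 ^ n), ...`; the ball of rank `r` uses only
the first `j + 1` bands, where `j ^ n ≤ r`.
-/

namespace Vale.Agent.Results.P209.RankPackings

open Vale.Agent.Lib.P209

theorem result (n k : ℕ) (hn : 1 ≤ n) (R : ℝ) (a : Fin k → ℝ) (ha : ∀ i, 0 < a i)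
    (σ : Equiv.Perm (Fin k)) (hσ : Antitone (a ∘ σ))
    (hsum : ∑ j ∈ Finset.range k, (if h : j ^ n < k then a (σ ⟨j ^ n, h⟩) else 0) < R) :
    Packing n k R a := by
  apply Packing.perm σ
  have hk : k ≤ k ^ n := by
    rcases Nat.eq_zero_or_pos k with h0 | hpos
    · rw [h0]
      exact Nat.zero_le _
    · calc k = k ^ 1 := (pow_one k).symm
        _ ≤ k ^ n := Nat.pow_le_pow_right hpos hn
  apply packing_rank hn hk R (a ∘ σ) (fun i => ha _) hσ
  have h1 := Fin.sum_univ_eq_sum_range
    (fun j : ℕ => if h : j ^ n < k then a (σ ⟨j ^ n, h⟩) else 0) k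
  have h2 : ∑ j : Fin k, (if h : j.val ^ n < k then (a ∘ σ) ⟨j.val ^ n, h⟩ else 0) =
      ∑ j : Fin k, (fun j : ℕ => if h : j ^ n < k then a (σ ⟨j ^ n, h⟩) else 0) j.val :=
    Finset.sum_congr rfl (fun j _ => rfl)
  rw [h2, h1]
  exact hsum

end Vale.Agent.Results.P209.RankPackings
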