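import Vale.Agent.Results.P209.PowTwoPackings
import Vale.Agent.Results.P209.RankPackings
import Vale.Agent.Lib.P209.MS.Main

/-!
# P209: three results on symplectic packings of a ball by balls, in one statement

(1) The existence direction of the conjecture for at most `2 ^ n` balls: if `k ≤ 2 ^ n`, the
total volume of the balls is less than that of the ball of capacity `R` and any two capacities
sum to less than `R`, then the balls pack.

(2) The rank criterion, for any number of balls: if the capacities, listed in non-increasing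
order, satisfy `b_0 + b_1 + b_{2^n} + b_{3^n} + ... < R`, then the balls pack.

(3) Balls that are not small together with small balls: for `n ≥ 2` and `δ > 0` there is
`ε > 0` such that for every `m ≥ 1` and every set `S` of at most `m ^ n` indices in which every
at most `m` balls have total capacity at most `R - m * G`, if the other balls have capacity at
most `ε * G` and total volume at most `1 - δ` times the volume left over by the balls in `S`,
then the balls pack.
-/

namespace Vale.Agent.Results.P209.PackingOmnibus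

open Vale.Agent.Lib.P209

theorem result :
    (∀ (n k : ℕ), 1 ≤ n → k ≤ 2 ^ n → ∀ R : ℝ, 0 < R → ∀ a : Fin k → ℝ, (∀ i, 0 < a i) →
      ∑ i, a i ^ n < R ^ n → (∀ i j, i < j → a i + a j < R) → Packing n k R a) ∧
    (∀ (n k : ℕ), 1 ≤ n → ∀ (R : ℝ) (a : Fin k → ℝ), (∀ i, 0 < a i) →
      ∀ σ : Equiv.Perm (Fin k), Antitone (a ∘ σ) →
      ∑ j ∈ Finset.range k, (if h : j ^ n < k then a (σ ⟨j ^ n, h⟩) else 0) < R →
      Packing n k R a) ∧
    (∀ n : ℕ, 2 ≤ n → ∀ δ : ℝ, 0 < δ → ∃ ε : ℝ, 0 < ε ∧
      ∀ (m N : ℕ) (R G : ℝ) (a : Fin N → ℝ) (S : Finset (Fin N)), 1 ≤ m →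
      S.card ≤ m ^ n → 0 < G → (m : ℝ) * G ≤ R → (∀ i, 0 < a i) →
      (∀ T : Finset (Fin N), T ⊆ S → T.card ≤ m → ∑ i ∈ T, a i ≤ R - m * G) →
      (∀ i, i ∉ S → a i ≤ ε * G) →
      ∑ i ∈ Sᶜ, a i ^ n ≤ (1 - δ) * (R ^ n - ∑ i ∈ S, a i ^ n) → Packing n N R a) :=
  ⟨fun n k hn hk R hR a ha hvol hpair => PowTwoPackings.result n k hn hk R hR a ha hvol hpair,
    fun n k hn R a ha σ hσ hsum => RankPackings.result n k hn R a ha σ hσ hsum,
    fun n hn δ hδ => msum_dust_packing n hn δ hδ⟩

end Vale.Agent.Results.P209.PackingOmnibus
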