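import Vale.Agent.Lib.P209.PowTwo

/-!
# P209: symplectic packings of a ball by at most `2 ^ n` balls

For every `n ≥ 1` and every `k ≤ 2 ^ n`, closed balls of capacities `a 0, ..., a (k-1)` in `ℂ^n`
admit a symplectic packing into the open ball of capacity `R` as soon as the volume inequality
`∑ a_i ^ n < R ^ n` and the pairwise inequalities `a_i + a_j < R` hold.  This is the sufficiency
direction of the Siegel-Yao criterion for at most `2 ^ n` balls.  The embeddings are explicit
toric maps onto the simplices of a staircase subdivision of the moment simplex.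
-/

namespace Vale.Agent.Results.P209.PowTwoPackings

open Vale.Agent.Lib.P209

theorem result (n k : ℕ) (hn : 1 ≤ n) (hk : k ≤ 2 ^ n) (R : ℝ) (hR : 0 < R) (a : Fin k → ℝ)
    (ha : ∀ i, 0 < a i) (hvol : ∑ i, a i ^ n < R ^ n)
    (hpair : ∀ i j, i < j → a i + a j < R) : Packing n k R a := by
  classical
  rcases Nat.eq_zero_or_pos k with hk0 | hkpos
  · subst hk0
    exact ⟨fun i => i.elim0, fun i => i.elim0, fun i => i.elim0, fun i => i.elim0⟩
  have haR : ∀ i, a i < R := by
    intro i
    have h1 : a i ^ n ≤ ∑ j, a j ^ n :=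
      Finset.single_le_sum (f := fun j => a j ^ n) (fun j _ => pow_nonneg (ha j).le n)
        (Finset.mem_univ i)
    exact lt_of_pow_lt_pow_left₀ n hR.le (lt_of_le_of_lt h1 hvol)
  have hpair' : ∀ i j, i ≠ j → a i + a j < R := by
    intro i j hij
    rcases lt_or_gt_of_ne hij with h | h
    · exact hpair i j h
    · have := hpair j i h
      linarith
  obtain ⟨i0, -, hmax⟩ :=
    Finset.exists_max_image Finset.univ a ⟨⟨0, hkpos⟩, Finset.mem_univ _⟩
  obtain ⟨μ, hμ0, hμ1, hμ2, hsm⟩ : ∃ μ : ℝ, 0 < μ ∧ μ ≤ R / 2 ∧ μ ≤ R - a i0 ∧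
      ∀ i, i ≠ i0 → a i < μ := by
    refine ⟨min (R / 2) (R - a i0), lt_min (by linarith) (by linarith [haR i0]),
      min_le_left _ _, min_le_right _ _, ?_⟩
    intro i hi
    have h1 := hpair' i i0 hi
    have h2 := hmax i (Finset.mem_univ i)
    exact lt_min (by linarith) (by linarith)
  obtain ⟨ε, hε, hεle⟩ := exists_pos_le (fun i => if i = i0 then 1 else μ - a i) (by
    intro i
    by_cases hi : i = i0
    · simp only [hi, if_true]
      exact one_pos
    · simp only [hi, if_false]
      linarith [hsm i hi])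
  obtain ⟨ε', hε', hε'ε, hε'μ⟩ : ∃ ε' : ℝ, 0 < ε' ∧ ε' ≤ ε ∧ ε' ≤ μ :=
    ⟨min ε μ, lt_min hε hμ0, min_le_left _ _, min_le_right _ _⟩
  have hcard : Fintype.card (Fin k) ≤ Fintype.card (Finset (Fin n)) := by
    rw [Fintype.card_fin, Fintype.card_finset, Fintype.card_fin]
    exact hk
  obtain ⟨e⟩ := Function.Embedding.nonempty_of_card_le hcard
  refine packing_stair hn R (μ - ε' / 2) (by linarith) (by linarith) a ha i0 (by linarith) ?_
    (fun i => Equiv.swap (e i0) Finset.univ (e i)) ?_ ?_
  · intro i hi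
    have h3 := hεle i
    simp only [hi, if_false] at h3
    linarith
  · exact (Equiv.swap (e i0) Finset.univ).injective.comp e.injective
  · exact Equiv.swap_apply_left _ _

end Vale.Agent.Results.P209.PowTwoPackings
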