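import Vale.Agent.Lib.P209.PowTwoDust

/-!
# P209: up to `2 ^ n` arbitrary balls with the pair condition, plus any number of small balls

Let `n ≥ 2` and `δ > 0`.  There is `ε > 0` such that for every `R` and every `G` with
`0 < G ≤ R` the following holds.  Let `a i` be positive capacities and let `S` be a set of at
most `2 ^ n` of the indices.  If `a i ≤ R - G` for `i` in `S`, `a i + a j ≤ R - G` for distinct
`i`, `j` in `S` (the pair condition of the conjecture, with margin `G`), `a i ≤ ε * G` for `i`
outside of `S`, and

`∑_{i ∉ S} a_i ^ n ≤ (1 - δ) * (R ^ n - ∑_{i ∈ S} a_i ^ n)`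

(the balls outside of `S` have total volume at most `1 - δ` times the volume left over by the
balls in `S`), then the closed balls of capacities `a i` admit a symplectic packing into the
open ball of capacity `R`.

The moment simplex of the ball of capacity `R` is cut by two coarse bands, of lengths slightly
more than the largest capacity in `S` plus `G / 2` and the rest, into one coarse simplex for the
largest ball of `S`, `2 ^ n - 1` coarse simplices for the other balls of `S`, and a remainder,
which is a union of simplices of a fine subdivision.  The small balls are distributed greedily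
among the free parts of the coarse simplices and the fine simplices, and every cell is packed
by the one-ball version of the statement, using composition of symplectic embeddings.
-/

namespace Vale.Agent.Results.P209.PowTwoPlusDust

open Vale.Agent.Lib.P209

theorem result (n : ℕ) (hn : 2 ≤ n) (δ : ℝ) (hδ : 0 < δ) :
    ∃ ε : ℝ, 0 < ε ∧ ∀ (N : ℕ) (R G : ℝ) (a : Fin N → ℝ) (S : Finset (Fin N)),
      S.card ≤ 2 ^ n → 0 < G → G ≤ R → (∀ i, 0 < a i) → (∀ i ∈ S, a i ≤ R - G) →
      (∀ i ∈ S, ∀ j ∈ S, i ≠ j → a i + a j ≤ R - G) → (∀ i, i ∉ S → a i ≤ ε * G) →
      ∑ i ∈ Sᶜ, a i ^ n ≤ (1 - δ) * (R ^ n - ∑ i ∈ S, a i ^ n) → Packing n N R a :=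
  pow_two_dust_packing n hn δ hδ

end Vale.Agent.Results.P209.PowTwoPlusDust
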